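import Vale.Agent.P054.MathlibUsed
import Vale.Agent.P054.Bdl.B2
attribute [-instance] ProperSMul.toContinuousSMul IsTopologicalTorsor.toContinuousSMul IdemSemiring.toCanonicallyOrderedAdd IdemSemiring.toMulLeftMono IdemSemiring.toMulRightMono AddQuantale.instAddLeftMono AddQuantale.instAddRightMono Quantale.instMulLeftMono Quantale.instMulRightMono FiniteDimensional.rclike_to_real IsScalarTower.complexToReal FiniteDimensional.complexToReal

set_option linter.all false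
set_option autoImplicit false

open Finset

/-! P054, the exponent for all sets: reflections given by dual vectors. -/

namespace Vale.Agent.P054G

open Vale.Agent.P054K

/-- the reflection in the hyperplane `2⟨z, w.1⟩ = w.2` -/
noncomputable def rf {d : ℕ} (w : EuclideanSpace ℝ (Fin d) × ℝ) (z : EuclideanSpace ℝ (Fin d)) :
    EuclideanSpace ℝ (Fin d) :=
  z - ((2 * inner ℝ w.1 z - w.2) / ‖w.1‖ ^ 2) • w.1

theorem rf_dual {d : ℕ} (a b : EuclideanSpace ℝ (Fin d)) (h : a ≠ b) : rf (dualVec (a, b)) a = b := by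
  unfold rf dualVec
  simp only
  have h0 : ‖a - b‖ ^ 2 ≠ 0 := by
    have : 0 < ‖a - b‖ := norm_pos_iff.mpr (sub_ne_zero.mpr h)
    positivity
  have h1 : 2 * inner ℝ (a - b) a - (‖a‖ ^ 2 - ‖b‖ ^ 2) = ‖a - b‖ ^ 2 := by
    rw [norm_sub_sq_real, inner_sub_left, real_inner_self_eq_norm_sq, real_inner_comm]
    ring
  rw [h1, div_self h0, one_smul, sub_sub_cancel]

theorem rf_smul {d : ℕ} (w : EuclideanSpace ℝ (Fin d) × ℝ) (c : ℝ) (hc : c ≠ 0)
    (z : EuclideanSpace ℝ (Fin d)) : rf (c • w) z = rf w z := by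
  unfold rf
  by_cases hw : w.1 = 0
  · simp [hw]
  have h0 : ‖w.1‖ ^ 2 ≠ 0 := by
    have : 0 < ‖w.1‖ := norm_pos_iff.mpr hw
    positivity
  simp only [Prod.smul_fst, Prod.smul_snd, smul_eq_mul]
  rw [inner_smul_left, norm_smul, smul_smul]
  congr 2
  simp only [RCLike.conj_to_real, Real.norm_eq_abs]
  rw [mul_pow, sq_abs]
  field_simp

theorem rf_of_span {d : ℕ} (w w' : EuclideanSpace ℝ (Fin d) × ℝ) (hw : w ≠ 0) (hw' : w' ≠ 0)
    (h : w ∈ Submodule.span ℝ {w'}) (z : EuclideanSpace ℝ (Fin d)) : rf w z = rf w' z := by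
  rw [Submodule.mem_span_singleton] at h
  obtain ⟨c, rfl⟩ := h
  apply rf_smul
  intro h0
  exact hw (by rw [h0, zero_smul])

theorem rf_rf {d : ℕ} (w : EuclideanSpace ℝ (Fin d) × ℝ) (z : EuclideanSpace ℝ (Fin d)) :
    rf w (rf w z) = z := by
  unfold rf
  by_cases hw : w.1 = 0
  · simp [hw]
  have h0 : ‖w.1‖ ^ 2 ≠ 0 := by
    have : 0 < ‖w.1‖ := norm_pos_iff.mpr hw
    positivity
  rw [inner_sub_right, inner_smul_right, real_inner_self_eq_norm_sq, div_mul_cancel₀ _ h0]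
  have h1 : 2 * (inner ℝ w.1 z - (2 * inner ℝ w.1 z - w.2)) - w.2 =
      -(2 * inner ℝ w.1 z - w.2) := by ring
  rw [h1, neg_div, neg_smul, sub_neg_eq_add, sub_add_cancel]

theorem rf_fix {d : ℕ} (w : EuclideanSpace ℝ (Fin d) × ℝ) (p : EuclideanSpace ℝ (Fin d))
    (h : w ∈ hyp p) : rf w p = p := by
  obtain ⟨u, c⟩ := w
  rw [mem_hyp] at h
  unfold rf
  simp only
  rw [real_inner_comm, h, sub_self, zero_div, zero_smul, sub_zero]

theorem fst_ne_zero {d : ℕ} (w : EuclideanSpace ℝ (Fin d) × ℝ) (p : EuclideanSpace ℝ (Fin d))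
    (h : w ∈ hyp p) (hw : w ≠ 0) : w.1 ≠ 0 := by
  obtain ⟨u, c⟩ := w
  rw [mem_hyp] at h
  intro h0
  simp only at h0
  apply hw
  subst h0
  rw [inner_zero_right, mul_zero] at h
  rw [← h]
  rfl

/-- the reflection as an affine map -/
noncomputable def rfA {d : ℕ} (w : EuclideanSpace ℝ (Fin d) × ℝ) :
    EuclideanSpace ℝ (Fin d) →ᵃ[ℝ] EuclideanSpace ℝ (Fin d) where
  toFun := rf w
  linear := LinearMap.id - (LinearMap.toSpanSingleton ℝ _ ((2 / ‖w.1‖ ^ 2) • w.1)).comp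
    (innerₛₗ ℝ w.1)
  map_vadd' z v := by
    simp only [vadd_eq_add, LinearMap.sub_apply, LinearMap.id_coe, id_eq, LinearMap.coe_comp,
      Function.comp_apply, LinearMap.toSpanSingleton_apply, innerₛₗ_apply_apply]
    unfold rf
    rw [inner_add_right, smul_smul]
    have h1 : (2 * (inner ℝ w.1 v + inner ℝ w.1 z) - w.2) / ‖w.1‖ ^ 2 =
        (2 * inner ℝ w.1 z - w.2) / ‖w.1‖ ^ 2 + inner ℝ w.1 v * (2 / ‖w.1‖ ^ 2) := by ring
    rw [h1, add_smul]
    abel

theorem rfA_apply {d : ℕ} (w : EuclideanSpace ℝ (Fin d) × ℝ) (z : EuclideanSpace ℝ (Fin d)) :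
    rfA w z = rf w z := rfl

theorem rfA_injective {d : ℕ} (w : EuclideanSpace ℝ (Fin d) × ℝ) : Function.Injective (rfA w) := by
  intro a b h
  rw [rfA_apply, rfA_apply] at h
  rw [← rf_rf w a, h, rf_rf]

end Vale.Agent.P054G
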