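import Vale.Agent.P054.MathlibUsed
import Vale.Agent.P054.Bdl.B2
import Vale.Agent.P054.H438.G.Def
attribute [-instance] ProperSMul.toContinuousSMul IsTopologicalTorsor.toContinuousSMul IdemSemiring.toCanonicallyOrderedAdd IdemSemiring.toMulLeftMono IdemSemiring.toMulRightMono AddQuantale.instAddLeftMono AddQuantale.instAddRightMono Quantale.instMulLeftMono Quantale.instMulRightMono FiniteDimensional.rclike_to_real IsScalarTower.complexToReal FiniteDimensional.complexToReal

set_option linter.all false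
set_option autoImplicit false

open Finset

/-! P054, the exponent for all sets: the pattern of a bad centre. -/

namespace Vale.Agent.P054G

open Vale.Agent.P054K

/-- the dual line of the bisector -/
noncomputable def dl {d : ℕ} (a b : EuclideanSpace ℝ (Fin d)) :
    Submodule ℝ (EuclideanSpace ℝ (Fin d) × ℝ) := Submodule.span ℝ {dualVec (a, b)}

open scoped Classical in
/-- the points of `X` in a triangle with all three bisectors in `H` -/
noncomputable def good {d : ℕ} (X : Finset (EuclideanSpace ℝ (Fin d)))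
    (H : Finset (Submodule ℝ (EuclideanSpace ℝ (Fin d) × ℝ))) :
    Finset (EuclideanSpace ℝ (Fin d)) :=
  X.filter (fun a => ∃ b ∈ X, ∃ c ∈ X, a ≠ b ∧ b ≠ c ∧ c ≠ a ∧
    dl a b ∈ H ∧ dl b c ∈ H ∧ dl c a ∈ H)

/-- `p` is `η`-bad for the block `X` -/
def Bad {d : ℕ} (X : Finset (EuclideanSpace ℝ (Fin d))) (η : ℝ)
    (p : EuclideanSpace ℝ (Fin d)) : Prop :=
  ∃ H : Finset (Submodule ℝ (EuclideanSpace ℝ (Fin d) × ℝ)), (H.card : ℝ) ≤ η ∧
    (∀ ℓ ∈ H, ℓ ≤ hyp p) ∧ (X.card : ℝ) ≤ 8 * (good X H).card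

/-- the points `a` that follow the pattern `(w1, w2, w3)` in `X` -/
def Follows {d : ℕ} (X : Finset (EuclideanSpace ℝ (Fin d)))
    (w1 w2 w3 : EuclideanSpace ℝ (Fin d) × ℝ) (a : EuclideanSpace ℝ (Fin d)) : Prop :=
  rf w1 a ∈ X ∧ rf w3 a ∈ X ∧ rf w2 (rf w1 a) = rf w3 a ∧ a ≠ rf w1 a ∧ rf w1 a ≠ rf w3 a ∧
    rf w3 a ≠ a

theorem follows_of_triangle {d : ℕ} (X : Finset (EuclideanSpace ℝ (Fin d)))
    (a b c a' b' c' : EuclideanSpace ℝ (Fin d)) (hb : b ∈ X) (hc : c ∈ X) (hab : a ≠ b)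
    (hbc : b ≠ c) (hca : c ≠ a) (hab' : a' ≠ b') (hbc' : b' ≠ c') (hca' : c' ≠ a')
    (h1 : dl a b = dl a' b') (h2 : dl b c = dl b' c') (h3 : dl c a = dl c' a') :
    Follows X (dualVec (a', b')) (dualVec (b', c')) (dualVec (c', a')) a := by
  have e1 : rf (dualVec (a', b')) a = b := by
    rw [rf_of_span (dualVec (a', b')) (dualVec (a, b)) (dualVec_ne_zero _ hab')
      (dualVec_ne_zero _ hab) ?_ a, rf_dual a b hab]
    have : dualVec (a', b') ∈ dl a' b' := Submodule.mem_span_singleton_self _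
    rw [← h1] at this
    exact this
  have e2 : rf (dualVec (b', c')) b = c := by
    rw [rf_of_span (dualVec (b', c')) (dualVec (b, c)) (dualVec_ne_zero _ hbc')
      (dualVec_ne_zero _ hbc) ?_ b, rf_dual b c hbc]
    have : dualVec (b', c') ∈ dl b' c' := Submodule.mem_span_singleton_self _
    rw [← h2] at this
    exact this
  have e3 : rf (dualVec (c', a')) a = c := by
    rw [rf_of_span (dualVec (c', a')) (dualVec (c, a)) (dualVec_ne_zero _ hca')
      (dualVec_ne_zero _ hca) ?_ a]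
    · have h4 := congrArg (rf (dualVec (c, a))) (rf_dual c a hca)
      rw [rf_rf] at h4
      exact h4.symm
    · have : dualVec (c', a') ∈ dl c' a' := Submodule.mem_span_singleton_self _
      rw [← h3] at this
      exact this
  refine ⟨?_, ?_, ?_, ?_, ?_, ?_⟩
  · rw [e1]; exact hb
  · rw [e3]; exact hc
  · rw [e1, e2, e3]
  · rw [e1]; exact hab
  · rw [e1, e3]; exact hbc
  · rw [e3]; exact hca

/-- pigeonhole over the patterns -/
theorem bad_pattern {d : ℕ} (X : Finset (EuclideanSpace ℝ (Fin d))) (η : ℝ)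
    (p : EuclideanSpace ℝ (Fin d)) (hX : X.Nonempty) (h : Bad X η p) :
    ∃ w1 ∈ hyp p, ∃ w2 ∈ hyp p, ∃ w3 ∈ hyp p, w1 ≠ 0 ∧ w2 ≠ 0 ∧ w3 ≠ 0 ∧
      ∃ A ⊆ X, (X.card : ℝ) ≤ 8 * η ^ 3 * A.card ∧ ∀ a ∈ A, Follows X w1 w2 w3 a := by
  classical
  obtain ⟨H, hH, hHp, hg⟩ := h
  have hgood : ∀ a ∈ good X H, ∃ b ∈ X, ∃ c ∈ X, a ≠ b ∧ b ≠ c ∧ c ≠ a ∧
      dl a b ∈ H ∧ dl b c ∈ H ∧ dl c a ∈ H := by
    intro a ha
    unfold good at ha
    exact (mem_filter.mp ha).2
  choose! fb hfb fc hfc hab hbc hca l1 l2 l3 using hgood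
  have hXpos : (0:ℝ) < X.card := by exact_mod_cast hX.card_pos
  have hgpos : (0:ℝ) < (good X H).card := by
    by_contra hcon
    push Not at hcon
    linarith
  have hgne : (good X H).Nonempty := by
    rw [← card_pos]
    exact_mod_cast hgpos
  -- the pattern map
  set f : EuclideanSpace ℝ (Fin d) → Submodule ℝ (EuclideanSpace ℝ (Fin d) × ℝ) ×
      Submodule ℝ (EuclideanSpace ℝ (Fin d) × ℝ) ×
      Submodule ℝ (EuclideanSpace ℝ (Fin d) × ℝ) :=
    fun a => (dl a (fb a), dl (fb a) (fc a), dl (fc a) a) with hf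
  set T := H ×ˢ H ×ˢ H with hT
  have hmaps : ∀ a ∈ good X H, f a ∈ T := by
    intro a ha
    rw [hf, hT]
    simp only [mem_product]
    exact ⟨l1 a ha, l2 a ha, l3 a ha⟩
  have hTne : T.Nonempty := by
    obtain ⟨a, ha⟩ := hgne
    exact ⟨_, hmaps a ha⟩
  obtain ⟨τ, hτ, hτc⟩ : ∃ τ ∈ T, (good X H).card ≤ T.card *
      ((good X H).filter (fun a => f a = τ)).card := by
    by_contra hcon
    push Not at hcon
    have h1 : (good X H).card = ∑ τ ∈ T, ((good X H).filter (fun a => f a = τ)).card :=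
      card_eq_sum_card_fiberwise hmaps
    have hTpos : 0 < T.card := hTne.card_pos
    have h2 : T.card * (good X H).card < T.card * (good X H).card := by
      calc T.card * (good X H).card =
            ∑ τ ∈ T, T.card * ((good X H).filter (fun a => f a = τ)).card := by
              conv_lhs => rw [h1]
              rw [mul_sum]
        _ < ∑ τ ∈ T, (good X H).card := sum_lt_sum_of_nonempty hTne hcon
        _ = T.card * (good X H).card := by rw [sum_const, smul_eq_mul]
    exact lt_irrefl _ h2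
  set A := (good X H).filter (fun a => f a = τ) with hA
  have hAne : A.Nonempty := by
    rw [← card_pos]
    by_contra hcon
    have h0 : A.card = 0 := by omega
    rw [h0, mul_zero] at hτc
    have := hgne.card_pos
    omega
  obtain ⟨a', ha'⟩ := hAne
  have ha'g : a' ∈ good X H := (mem_filter.mp ha').1
  have ha'τ : f a' = τ := (mem_filter.mp ha').2
  have hle : ∀ (a b : EuclideanSpace ℝ (Fin d)), dl a b ∈ H → dualVec (a, b) ∈ hyp p := by
    intro a b hab
    exact hHp _ hab (Submodule.mem_span_singleton_self _)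
  refine ⟨dualVec (a', fb a'), hle _ _ (l1 a' ha'g), dualVec (fb a', fc a'),
    hle _ _ (l2 a' ha'g), dualVec (fc a', a'), hle _ _ (l3 a' ha'g),
    dualVec_ne_zero _ (hab a' ha'g), dualVec_ne_zero _ (hbc a' ha'g),
    dualVec_ne_zero _ (hca a' ha'g), A, ?_, ?_, ?_⟩
  · intro a ha
    have h1 := (mem_filter.mp ha).1
    unfold good at h1
    exact (mem_filter.mp h1).1
  · have hTc : (T.card : ℝ) ≤ η ^ 3 := by
      rw [hT, card_product, card_product]
      push_cast
      have hH0 : (0:ℝ) ≤ H.card := by positivity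
      calc (H.card:ℝ) * (H.card * H.card) = (H.card:ℝ) ^ 3 := by ring
        _ ≤ η ^ 3 := pow_le_pow_left₀ hH0 hH 3
    have h1 : ((good X H).card : ℝ) ≤ T.card * A.card := by exact_mod_cast hτc
    have hA0 : (0:ℝ) ≤ A.card := by positivity
    calc (X.card : ℝ) ≤ 8 * (good X H).card := hg
      _ ≤ 8 * (T.card * A.card) := by linarith
      _ ≤ 8 * (η ^ 3 * A.card) := by
          have := mul_le_mul_of_nonneg_right hTc hA0
          linarith
      _ = 8 * η ^ 3 * A.card := by ring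
  · intro a ha
    have hag : a ∈ good X H := (mem_filter.mp ha).1
    have haτ : f a = f a' := ((mem_filter.mp ha).2).trans ha'τ.symm
    rw [hf] at haτ
    simp only [Prod.mk.injEq] at haτ
    obtain ⟨e1, e2, e3⟩ := haτ
    exact follows_of_triangle X a (fb a) (fc a) a' (fb a') (fc a') (hfb a hag) (hfc a hag)
      (hab a hag) (hbc a hag) (hca a hag) (hab a' ha'g) (hbc a' ha'g) (hca a' ha'g) e1 e2 e3

end Vale.Agent.P054G
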