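import Vale.Agent.P054.MathlibUsed
import Vale.Agent.P054.Bdl.B2
import Vale.Agent.P054.H25.Kr
import Vale.Agent.P054.H438.G.Def
attribute [-instance] ProperSMul.toContinuousSMul IsTopologicalTorsor.toContinuousSMul IdemSemiring.toCanonicallyOrderedAdd IdemSemiring.toMulLeftMono IdemSemiring.toMulRightMono AddQuantale.instAddLeftMono AddQuantale.instAddRightMono Quantale.instMulLeftMono Quantale.instMulRightMono FiniteDimensional.rclike_to_real IsScalarTower.complexToReal FiniteDimensional.complexToReal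

set_option linter.all false
set_option autoImplicit false

open Finset

/-! P054, the exponent for all sets: robust flats.
A flat `F` is represented by the linear subspace `U` of `E × ℝ` with `z ∈ F ↔ (z, 1) ∈ U`. -/

namespace Vale.Agent.P054G

open Vale.Agent.P054K

/-- the lift of a point -/
def lf {d : ℕ} (z : EuclideanSpace ℝ (Fin d)) : EuclideanSpace ℝ (Fin d) × ℝ := (z, 1)

/-- the linear extension of the reflection -/
noncomputable def rfL {d : ℕ} (w : EuclideanSpace ℝ (Fin d) × ℝ) :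
    (EuclideanSpace ℝ (Fin d) × ℝ) →ₗ[ℝ] (EuclideanSpace ℝ (Fin d) × ℝ) where
  toFun y := (y.1 - ((2 * inner ℝ w.1 y.1 - w.2 * y.2) / ‖w.1‖ ^ 2) • w.1, y.2)
  map_add' y y' := by
    simp only [Prod.fst_add, Prod.snd_add, Prod.mk_add_mk, Prod.mk.injEq, and_true]
    rw [inner_add_right]
    have h1 : (2 * (inner ℝ w.1 y.1 + inner ℝ w.1 y'.1) - w.2 * (y.2 + y'.2)) / ‖w.1‖ ^ 2 =
        (2 * inner ℝ w.1 y.1 - w.2 * y.2) / ‖w.1‖ ^ 2 +
          (2 * inner ℝ w.1 y'.1 - w.2 * y'.2) / ‖w.1‖ ^ 2 := by ring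
    rw [h1, add_smul]
    abel
  map_smul' c y := by
    simp only [Prod.smul_fst, Prod.smul_snd, smul_eq_mul, RingHom.id_apply, Prod.smul_mk,
      Prod.mk.injEq, and_true]
    rw [inner_smul_right, smul_sub, smul_smul]
    congr 2
    ring

theorem rfL_lf {d : ℕ} (w : EuclideanSpace ℝ (Fin d) × ℝ) (z : EuclideanSpace ℝ (Fin d)) :
    rfL w (lf z) = lf (rf w z) := by
  unfold lf rf rfL
  simp only [LinearMap.coe_mk, AddHom.coe_mk, mul_one]

theorem rfL_rfL {d : ℕ} (w y : EuclideanSpace ℝ (Fin d) × ℝ) : rfL w (rfL w y) = y := by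
  unfold rfL
  simp only [LinearMap.coe_mk, AddHom.coe_mk]
  apply Prod.ext
  · simp only
    by_cases hw : w.1 = 0
    · simp [hw]
    have h0 : ‖w.1‖ ^ 2 ≠ 0 := by
      have : 0 < ‖w.1‖ := norm_pos_iff.mpr hw
      positivity
    rw [inner_sub_right, inner_smul_right, real_inner_self_eq_norm_sq, div_mul_cancel₀ _ h0]
    have h1 : 2 * (inner ℝ w.1 y.1 - (2 * inner ℝ w.1 y.1 - w.2 * y.2)) - w.2 * y.2 =
        -(2 * inner ℝ w.1 y.1 - w.2 * y.2) := by ring
    rw [h1, neg_div, neg_smul, sub_neg_eq_add, sub_add_cancel]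
  · rfl

theorem rfL_injective {d : ℕ} (w : EuclideanSpace ℝ (Fin d) × ℝ) :
    Function.Injective (rfL w) := by
  intro a b h
  rw [← rfL_rfL w a, h, rfL_rfL]

open scoped Classical in
/-- the number of `r`-tuples of points of `X` that span `U` -/
noncomputable def tup {d : ℕ} (X : Finset (EuclideanSpace ℝ (Fin d))) (r : ℕ)
    (U : Submodule ℝ (EuclideanSpace ℝ (Fin d) × ℝ)) : ℕ :=
  ((Fintype.piFinset (fun _ : Fin r => X)).filter
    (fun g => Submodule.span ℝ (Set.range (fun i => lf (g i))) = U)).card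

/-- `U` is a flat of (linear) dimension `r` spanned by at least `θ ^ r` tuples of points of `X` -/
def Rob {d : ℕ} (X : Finset (EuclideanSpace ℝ (Fin d))) (θ : ℝ) (r : ℕ)
    (U : Submodule ℝ (EuclideanSpace ℝ (Fin d) × ℝ)) : Prop :=
  Module.finrank ℝ U = r ∧ θ ^ r ≤ (tup X r U : ℝ)

/-- number of robust flats -/
theorem rob_count {d : ℕ} (X : Finset (EuclideanSpace ℝ (Fin d))) (θ : ℝ) (r : ℕ)
    (N : Finset (Submodule ℝ (EuclideanSpace ℝ (Fin d) × ℝ)))
    (hN : ∀ U ∈ N, Rob X θ r U) : (N.card : ℝ) * θ ^ r ≤ (X.card : ℝ) ^ r := by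
  classical
  have h1 : ∑ U ∈ N, tup X r U ≤ X.card ^ r := by
    have h2 : (N.biUnion (fun U => (Fintype.piFinset (fun _ : Fin r => X)).filter
        (fun g => Submodule.span ℝ (Set.range (fun i => lf (g i))) = U))).card =
        ∑ U ∈ N, tup X r U := by
      rw [card_biUnion]
      · rfl
      · intro U _ U' _ hne
        rw [Function.onFun, disjoint_left]
        intro g hg hg'
        rw [mem_filter] at hg hg'
        exact hne (hg.2.symm.trans hg'.2)
    rw [← h2]
    have h3 : (Fintype.piFinset (fun _ : Fin r => X)).card = X.card ^ r := by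
      rw [Fintype.card_piFinset]
      simp
    rw [← h3]
    apply card_le_card
    intro g hg
    rw [mem_biUnion] at hg
    obtain ⟨U, _, hg⟩ := hg
    exact (mem_filter.mp hg).1
  calc (N.card : ℝ) * θ ^ r = ∑ U ∈ N, θ ^ r := by rw [sum_const, nsmul_eq_mul]
    _ ≤ ∑ U ∈ N, (tup X r U : ℝ) := sum_le_sum (fun U hU => (hN U hU).2)
    _ = ((∑ U ∈ N, tup X r U : ℕ) : ℝ) := by push_cast; rfl
    _ ≤ ((X.card ^ r : ℕ) : ℝ) := by exact_mod_cast h1
    _ = (X.card : ℝ) ^ r := by push_cast; rfl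

/-- robust flats are mapped to robust flats by reflections that map `A` into `X` -/
theorem rob_map {d : ℕ} (A X : Finset (EuclideanSpace ℝ (Fin d))) (θ : ℝ) (r : ℕ)
    (U : Submodule ℝ (EuclideanSpace ℝ (Fin d) × ℝ)) (w : EuclideanSpace ℝ (Fin d) × ℝ)
    (hU : Rob A θ r U) (hw : ∀ a ∈ A, rf w a ∈ X) : Rob X θ r (U.map (rfL w)) := by
  classical
  refine ⟨?_, hU.2.trans ?_⟩
  · rw [← hU.1]
    exact (LinearEquiv.finrank_eq (Submodule.equivMapOfInjective (rfL w) (rfL_injective w) U)).symm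
  · norm_cast
    unfold tup
    apply card_le_card_of_injOn (fun g => fun i => rf w (g i))
    · intro g hg
      rw [mem_coe, mem_filter, Fintype.mem_piFinset] at hg ⊢
      refine ⟨fun i => hw _ (hg.1 i), ?_⟩
      rw [← hg.2, Submodule.map_span]
      congr 1
      ext y
      simp only [Set.mem_range, Set.mem_image]
      constructor
      · rintro ⟨i, rfl⟩
        exact ⟨lf (g i), ⟨i, rfl⟩, rfL_lf w (g i)⟩
      · rintro ⟨_, ⟨i, rfl⟩, rfl⟩
        exact ⟨i, (rfL_lf w (g i)).symm⟩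
    · intro g _ g' _ h
      funext i
      have h1 := congrFun h i
      simp only at h1
      rw [← rf_rf w (g i), h1, rf_rf]

theorem tup_mono {d : ℕ} {A X : Finset (EuclideanSpace ℝ (Fin d))} (h : A ⊆ X) (r : ℕ)
    (U : Submodule ℝ (EuclideanSpace ℝ (Fin d) × ℝ)) : tup A r U ≤ tup X r U := by
  classical
  unfold tup
  apply card_le_card
  intro g hg
  rw [mem_filter, Fintype.mem_piFinset] at hg ⊢
  exact ⟨fun i => h (hg.1 i), hg.2⟩

theorem Rob.mono {d : ℕ} {A X : Finset (EuclideanSpace ℝ (Fin d))} {θ θ' : ℝ} {r : ℕ}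
    {U : Submodule ℝ (EuclideanSpace ℝ (Fin d) × ℝ)} (hU : Rob A θ r U) (h : A ⊆ X)
    (hθ : 0 ≤ θ') (hθ' : θ' ≤ θ) : Rob X θ' r U := by
  refine ⟨hU.1, ?_⟩
  calc θ' ^ r ≤ θ ^ r := pow_le_pow_left₀ hθ hθ' r
    _ ≤ (tup A r U : ℝ) := hU.2
    _ ≤ _ := by exact_mod_cast tup_mono h r U

/-- a robust flat contains a point -/
theorem Rob.nonempty {d : ℕ} {X : Finset (EuclideanSpace ℝ (Fin d))} {θ : ℝ} {r : ℕ}
    {U : Submodule ℝ (EuclideanSpace ℝ (Fin d) × ℝ)} (hU : Rob X θ r U) (hr : 1 ≤ r) (hθ : 0 < θ) :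
    ∃ a ∈ X, lf a ∈ U := by
  classical
  have h1 : 0 < tup X r U := by
    have : (0:ℝ) < tup X r U := lt_of_lt_of_le (by positivity) hU.2
    exact_mod_cast this
  unfold tup at h1
  rw [card_pos] at h1
  obtain ⟨g, hg⟩ := h1
  rw [mem_filter, Fintype.mem_piFinset] at hg
  refine ⟨g ⟨0, by omega⟩, hg.1 _, ?_⟩
  rw [← hg.2]
  exact Submodule.subset_span ⟨_, rfl⟩

/-- a robust flat is spanned by lifts, so it is determined by its points -/
theorem Rob.ext {d : ℕ} {X X' : Finset (EuclideanSpace ℝ (Fin d))} {θ θ' : ℝ} {r r' : ℕ}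
    {U U' : Submodule ℝ (EuclideanSpace ℝ (Fin d) × ℝ)} (hU : Rob X θ r U) (hU' : Rob X' θ' r' U')
    (hθ : 0 < θ) (hθ' : 0 < θ') (h : ∀ z, lf z ∈ U ↔ lf z ∈ U') : U = U' := by
  classical
  have key : ∀ (X X' : Finset (EuclideanSpace ℝ (Fin d))) (θ θ' : ℝ) (r r' : ℕ)
      (U U' : Submodule ℝ (EuclideanSpace ℝ (Fin d) × ℝ)), Rob X θ r U → 0 < θ →
      (∀ z, lf z ∈ U → lf z ∈ U') → U ≤ U' := by
    intro X X' θ θ' r r' U U' hU hθ h
    have h1 : 0 < tup X r U := by
      have : (0:ℝ) < tup X r U := lt_of_lt_of_le (by positivity) hU.2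
      exact_mod_cast this
    unfold tup at h1
    rw [card_pos] at h1
    obtain ⟨g, hg⟩ := h1
    rw [mem_filter, Fintype.mem_piFinset] at hg
    have h2 : ∀ i, lf (g i) ∈ U := by
      intro i
      rw [← hg.2]
      exact Submodule.subset_span ⟨_, rfl⟩
    rw [← hg.2, Submodule.span_le]
    rintro _ ⟨i, rfl⟩
    exact h _ (h2 i)
  exact le_antisymm (key X X' θ θ' r r' U U' hU hθ (fun z => (h z).mp))
    (key X' X θ' θ r' r U' U hU' hθ' (fun z => (h z).mpr))

/-- the functional of a hyperplane -/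
noncomputable def hf {d : ℕ} (m p : EuclideanSpace ℝ (Fin d)) :
    Submodule ℝ (EuclideanSpace ℝ (Fin d) × ℝ) :=
  LinearMap.ker ((innerₛₗ ℝ m).coprod ((-(inner ℝ m p : ℝ)) • (LinearMap.id : ℝ →ₗ[ℝ] ℝ)))

theorem mem_hf {d : ℕ} (m p : EuclideanSpace ℝ (Fin d)) (y : EuclideanSpace ℝ (Fin d) × ℝ) :
    y ∈ hf m p ↔ inner ℝ m y.1 = y.2 * inner ℝ m p := by
  unfold hf
  rw [LinearMap.mem_ker, LinearMap.coprod_apply]
  simp only [innerₛₗ_apply_apply, LinearMap.smul_apply, LinearMap.id_coe, id_eq, smul_eq_mul]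
  constructor
  · intro h; linarith
  · intro h; linarith

theorem lf_mem_hf {d : ℕ} (m p z : EuclideanSpace ℝ (Fin d)) :
    lf z ∈ hf m p ↔ inner ℝ m (z - p) = 0 := by
  rw [mem_hf]
  unfold lf
  simp only [one_mul]
  rw [inner_sub_right, sub_eq_zero]

theorem finrank_hf {d : ℕ} (m p : EuclideanSpace ℝ (Fin d)) (hm : m ≠ 0) :
    Module.finrank ℝ (hf m p) = d := by
  unfold hf
  have h1 := LinearMap.finrank_range_add_finrank_ker
    ((innerₛₗ ℝ m).coprod ((-(inner ℝ m p : ℝ)) • (LinearMap.id : ℝ →ₗ[ℝ] ℝ)))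
  have h2 : LinearMap.range ((innerₛₗ ℝ m).coprod
      ((-(inner ℝ m p : ℝ)) • (LinearMap.id : ℝ →ₗ[ℝ] ℝ))) = ⊤ := by
    rw [LinearMap.range_eq_top]
    intro x
    refine ⟨((x / ‖m‖ ^ 2) • m, 0), ?_⟩
    have h0 : ‖m‖ ^ 2 ≠ 0 := by
      have : 0 < ‖m‖ := norm_pos_iff.mpr hm
      positivity
    rw [LinearMap.coprod_apply]
    simp only [innerₛₗ_apply_apply, map_zero, add_zero]
    rw [inner_smul_right, real_inner_self_eq_norm_sq, div_mul_cancel₀ _ h0]
  rw [h2, finrank_top] at h1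
  have h3 : Module.finrank ℝ (EuclideanSpace ℝ (Fin d) × ℝ) = d + 1 := by
    rw [Module.finrank_prod, finrank_euclideanSpace_fin, Module.finrank_self]
  rw [h3, Module.finrank_self] at h1
  omega

/-- the minimal flat: a set `A` in the hyperplane `U₀` has a robust flat of linear dimension
at least two in it -/
theorem min_flat {d : ℕ} (A : Finset (EuclideanSpace ℝ (Fin d)))
    (U₀ : Submodule ℝ (EuclideanSpace ℝ (Fin d) × ℝ)) (hfr : Module.finrank ℝ U₀ ≤ d)
    (hA : ∀ a ∈ A, lf a ∈ U₀) (hcard : 2 ^ d < A.card) :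
    ∃ (r : ℕ) (U : Submodule ℝ (EuclideanSpace ℝ (Fin d) × ℝ)), 2 ≤ r ∧ r ≤ d ∧ U ≤ U₀ ∧
      Rob A ((A.card : ℝ) / 2 ^ (d + 1)) r U := by
  classical
  set Q : ℕ → Prop := fun r => ∃ U : Submodule ℝ (EuclideanSpace ℝ (Fin d) × ℝ), U ≤ U₀ ∧
    Module.finrank ℝ U = r ∧ (A.card : ℝ) ≤ 2 ^ (d - r) * mass A lf U with hQ
  have hQ0 : Q (Module.finrank ℝ U₀) := by
    refine ⟨U₀, le_rfl, rfl, ?_⟩
    have h1 : mass A lf U₀ = A.card := by
      unfold mass
      congr 1
      rw [filter_true_of_mem hA]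
    rw [h1]
    exact le_mul_of_one_le_left (by positivity) (one_le_pow₀ (by norm_num))
  have hex : ∃ r, Q r := ⟨_, hQ0⟩
  obtain ⟨U, hUle, hUr, hUm⟩ := Nat.find_spec hex
  set r := Nat.find hex with hr
  have hrd : r ≤ d := (Nat.find_min' hex hQ0).trans hfr
  have hmin : ∀ r' < r, ¬ Q r' := fun r' h => Nat.find_min hex h
  -- at least two
  have hr2 : 2 ≤ r := by
    by_contra hcon
    have hle : r ≤ 1 := by omega
    have hm1 : mass A lf U ≤ 1 := by
      unfold mass
      have : (A.filter (fun i => lf i ∈ U)).card ≤ 1 := by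
        rw [card_le_one]
        intro a ha b hb
        rw [mem_filter] at ha hb
        by_contra hab
        have hli : LinearIndependent ℝ ![lf a, lf b] := by
          rw [LinearIndependent.pair_iff]
          intro s t hst
          unfold lf at hst
          rw [Prod.smul_mk, Prod.smul_mk, Prod.mk_add_mk, Prod.mk_eq_zero] at hst
          obtain ⟨h1, h2⟩ := hst
          simp only [smul_eq_mul, mul_one] at h2
          have h3 : t = -s := by linarith
          rw [h3, neg_smul, ← sub_eq_add_neg, ← smul_sub, smul_eq_zero] at h1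
          rcases h1 with h1 | h1
          · rw [h3, h1]; simp
          · exact absurd (sub_eq_zero.mp h1) hab
        have h2 : Submodule.span ℝ (Set.range ![lf a, lf b]) ≤ U := by
          rw [Submodule.span_le]
          rintro _ ⟨i, rfl⟩
          fin_cases i
          · exact ha.2
          · exact hb.2
        have h3 := Submodule.finrank_mono h2
        rw [finrank_span_eq_card hli, Fintype.card_fin, hUr] at h3
        omega
      exact_mod_cast this
    have h1 : (A.card : ℝ) ≤ 2 ^ (d - r) * 1 :=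
      hUm.trans (mul_le_mul_of_nonneg_left hm1 (by positivity))
    have h2 : (2:ℝ) ^ (d - r) ≤ 2 ^ d := pow_le_pow_right₀ (by norm_num) (by omega)
    have h3 : (A.card : ℝ) ≤ 2 ^ d := by linarith
    have h4 : A.card ≤ 2 ^ d := by exact_mod_cast h3
    omega
  refine ⟨r, U, hr2, hrd, hUle, hUr, ?_⟩
  -- proper subspaces have less than half
  have hB : ∀ B : Submodule ℝ (EuclideanSpace ℝ (Fin d) × ℝ), B < U →
      2 * mass A lf B ≤ mass A lf U := by
    intro B hB
    have h1 : Module.finrank ℝ B < r := by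
      rw [← hUr]
      exact Submodule.finrank_lt_finrank_of_lt hB
    have h2 := hmin _ h1
    rw [hQ] at h2
    push Not at h2
    have h3 := h2 B (hB.le.trans hUle) rfl
    have h4 : (2:ℝ) ^ (d - Module.finrank ℝ B) = 2 ^ (d - r) * 2 ^ (r - Module.finrank ℝ B) := by
      rw [← pow_add]
      congr 1
      omega
    have h5 : (2:ℝ) ^ 1 ≤ 2 ^ (r - Module.finrank ℝ B) :=
      pow_le_pow_right₀ (by norm_num) (by omega)
    have h6 : (0:ℝ) < 2 ^ (d - r) := by positivity
    have h7 : 0 ≤ mass A lf B := by unfold mass; positivity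
    have h8 : (2:ℝ) ^ (d - r) * (2 ^ (r - Module.finrank ℝ B) * mass A lf B) ≤
        2 ^ (d - r) * mass A lf U := by
      rw [← mul_assoc, ← h4]
      exact (h3.trans_le hUm).le
    have h9 := le_of_mul_le_mul_left h8 h6
    calc 2 * mass A lf B = 2 ^ 1 * mass A lf B := by norm_num
      _ ≤ 2 ^ (r - Module.finrank ℝ B) * mass A lf B := mul_le_mul_of_nonneg_right h5 h7
      _ ≤ _ := h9
  have h1 := Vale.Agent.P054F.indep_tuples A lf U 2 le_rfl hB r hUr.ge
  have h2 : (A.card : ℝ) / 2 ^ (d + 1) ≤ mass A lf U / 2 := by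
    rw [div_le_div_iff₀ (by positivity) (by norm_num)]
    have h3 : (2:ℝ) ^ (d - r) ≤ 2 ^ d := pow_le_pow_right₀ (by norm_num) (by omega)
    have h4 : 0 ≤ mass A lf U := by unfold mass; positivity
    calc (A.card : ℝ) * 2 ≤ (2 ^ (d - r) * mass A lf U) * 2 :=
          mul_le_mul_of_nonneg_right hUm (by norm_num)
      _ ≤ (2 ^ d * mass A lf U) * 2 :=
          mul_le_mul_of_nonneg_right (mul_le_mul_of_nonneg_right h3 h4) (by norm_num)
      _ = mass A lf U * 2 ^ (d + 1) := by rw [pow_succ]; ring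
  calc ((A.card : ℝ) / 2 ^ (d + 1)) ^ r ≤ (mass A lf U / 2) ^ r :=
        pow_le_pow_left₀ (by positivity) h2 r
    _ ≤ _ := h1
    _ ≤ (tup A r U : ℝ) := by
      norm_cast
      unfold tup
      apply card_le_card
      intro g hg
      rw [mem_filter, Fintype.mem_piFinset] at hg ⊢
      obtain ⟨hg1, hg2⟩ := hg
      have hgA : ∀ i, g i ∈ A := fun i => (mem_filter.mp (hg1 i)).1
      have hgU : ∀ i, lf (g i) ∈ U := fun i => (mem_filter.mp (hg1 i)).2
      refine ⟨hgA, ?_⟩
      apply Submodule.eq_of_le_of_finrank_eq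
      · rw [Submodule.span_le]
        rintro _ ⟨i, rfl⟩
        exact hgU i
      · rw [finrank_span_eq_card hg2, Fintype.card_fin, hUr]

end Vale.Agent.P054G
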