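import Vale.Agent.P054.MathlibUsed
import Vale.Agent.P054.Bdl.B2
import Vale.Agent.P054.H438.G.Rob
attribute [-instance] ProperSMul.toContinuousSMul IsTopologicalTorsor.toContinuousSMul IdemSemiring.toCanonicallyOrderedAdd IdemSemiring.toMulLeftMono IdemSemiring.toMulRightMono AddQuantale.instAddLeftMono AddQuantale.instAddRightMono Quantale.instMulLeftMono Quantale.instMulRightMono FiniteDimensional.rclike_to_real IsScalarTower.complexToReal FiniteDimensional.complexToReal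

set_option linter.all false
set_option autoImplicit false

open Finset

/-! P054, the exponent for all sets: the finite set of robust flats, and the flat of `U`. -/

namespace Vale.Agent.P054G

open Vale.Agent.P054K

open scoped Classical in
/-- all robust flats -/
noncomputable def robs {d : ℕ} (X : Finset (EuclideanSpace ℝ (Fin d))) (θ : ℝ) (r : ℕ) :
    Finset (Submodule ℝ (EuclideanSpace ℝ (Fin d) × ℝ)) :=
  ((Fintype.piFinset (fun _ : Fin r => X)).image
    (fun g => Submodule.span ℝ (Set.range (fun i => lf (g i))))).filter (fun U => Rob X θ r U)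

theorem mem_robs {d : ℕ} {X : Finset (EuclideanSpace ℝ (Fin d))} {θ : ℝ} {r : ℕ}
    {U : Submodule ℝ (EuclideanSpace ℝ (Fin d) × ℝ)} (hθ : 0 < θ) :
    U ∈ robs X θ r ↔ Rob X θ r U := by
  classical
  unfold robs
  rw [mem_filter, mem_image]
  constructor
  · exact fun h => h.2
  · intro hU
    refine ⟨?_, hU⟩
    have h1 : 0 < tup X r U := by
      have : (0:ℝ) < tup X r U := lt_of_lt_of_le (by positivity) hU.2
      exact_mod_cast this
    unfold tup at h1
    rw [card_pos] at h1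
    obtain ⟨g, hg⟩ := h1
    rw [mem_filter] at hg
    exact ⟨g, hg.1, hg.2⟩

theorem robs_card {d : ℕ} (X : Finset (EuclideanSpace ℝ (Fin d))) (θ : ℝ) (r : ℕ) (hθ : 0 < θ) :
    ((robs X θ r).card : ℝ) * θ ^ r ≤ (X.card : ℝ) ^ r :=
  rob_count X θ r _ (fun _ hU => (mem_robs hθ).mp hU)

/-- with `x ≤ κ θ` there are at most `κ ^ r` robust flats -/
theorem robs_card_le {d : ℕ} (X : Finset (EuclideanSpace ℝ (Fin d))) (θ κ : ℝ) (r : ℕ)
    (hθ : 0 < θ) (hκ : (X.card : ℝ) ≤ κ * θ) : ((robs X θ r).card : ℝ) ≤ κ ^ r := by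
  have h1 := robs_card X θ r hθ
  have h2 : (X.card : ℝ) ^ r ≤ κ ^ r * θ ^ r := by
    rw [← mul_pow]
    exact pow_le_pow_left₀ (by positivity) hκ r
  exact le_of_mul_le_mul_right (h1.trans h2) (by positivity)

/-- the flat of `U` -/
def FU {d : ℕ} (U : Submodule ℝ (EuclideanSpace ℝ (Fin d) × ℝ)) :
    AffineSubspace ℝ (EuclideanSpace ℝ (Fin d)) where
  carrier := {z | lf z ∈ U}
  smul_vsub_vadd_mem' := by
    intro c p1 p2 p3 h1 h2 h3
    simp only [Set.mem_ofPred_eq] at h1 h2 h3 ⊢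
    have h4 : lf (c • (p1 -ᵥ p2) +ᵥ p3) = c • (lf p1 - lf p2) + lf p3 := by
      unfold lf
      simp only [vsub_eq_sub, vadd_eq_add, Prod.mk_sub_mk, Prod.smul_mk, Prod.mk_add_mk, sub_self,
        smul_zero, zero_add]
    rw [h4]
    exact U.add_mem (U.smul_mem c (U.sub_mem h1 h2)) h3

theorem mem_FU {d : ℕ} (U : Submodule ℝ (EuclideanSpace ℝ (Fin d) × ℝ))
    (z : EuclideanSpace ℝ (Fin d)) : z ∈ FU U ↔ lf z ∈ U := Iff.rfl

theorem FU_ne {d : ℕ} {X X' : Finset (EuclideanSpace ℝ (Fin d))} {θ θ' : ℝ} {r r' : ℕ}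
    {U U' : Submodule ℝ (EuclideanSpace ℝ (Fin d) × ℝ)} (hU : Rob X θ r U) (hU' : Rob X' θ' r' U')
    (hθ : 0 < θ) (hθ' : 0 < θ') (h : U ≠ U') : FU U ≠ FU U' := by
  intro hF
  apply h
  apply Rob.ext hU hU' hθ hθ'
  intro z
  rw [← mem_FU, ← mem_FU, hF]

theorem FU_map {d : ℕ} (U : Submodule ℝ (EuclideanSpace ℝ (Fin d) × ℝ))
    (w : EuclideanSpace ℝ (Fin d) × ℝ) (z : EuclideanSpace ℝ (Fin d)) :
    z ∈ FU U ↔ rf w z ∈ FU (U.map (rfL w)) := by
  rw [mem_FU, mem_FU, ← rfL_lf]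
  constructor
  · intro h
    exact Submodule.mem_map_of_mem h
  · intro h
    obtain ⟨y, hy, hyz⟩ := Submodule.mem_map.mp h
    have := rfL_injective w hyz
    rw [← this]
    exact hy

/-- image under one reflection of a pattern equals image under the composition of the others -/
theorem map_pattern {d : ℕ} (A : Finset (EuclideanSpace ℝ (Fin d))) (θ : ℝ) (r : ℕ)
    (U : Submodule ℝ (EuclideanSpace ℝ (Fin d) × ℝ)) (hU : Rob A θ r U) (hθ : 0 < θ)
    (w1 w2 w3 : EuclideanSpace ℝ (Fin d) × ℝ) (h : ∀ a ∈ A, rf w2 (rf w1 a) = rf w3 a) :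
    (U.map (rfL w1)).map (rfL w2) = U.map (rfL w3) := by
  classical
  have h1 : 0 < tup A r U := by
    have : (0:ℝ) < tup A r U := lt_of_lt_of_le (by positivity) hU.2
    exact_mod_cast this
  unfold tup at h1
  rw [card_pos] at h1
  obtain ⟨g, hg⟩ := h1
  rw [mem_filter, Fintype.mem_piFinset] at hg
  rw [← hg.2, Submodule.map_span, Submodule.map_span, Submodule.map_span]
  congr 1
  ext y
  simp only [Set.mem_image, Set.mem_range]
  constructor
  · rintro ⟨_, ⟨_, ⟨i, rfl⟩, rfl⟩, rfl⟩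
    refine ⟨lf (g i), ⟨i, rfl⟩, ?_⟩
    rw [rfL_lf, rfL_lf, rfL_lf, h _ (hg.1 i)]
  · rintro ⟨_, ⟨i, rfl⟩, rfl⟩
    refine ⟨rfL w1 (lf (g i)), ⟨lf (g i), ⟨i, rfl⟩, rfl⟩, ?_⟩
    rw [rfL_lf, rfL_lf, rfL_lf, h _ (hg.1 i)]

end Vale.Agent.P054G
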