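import Vale.Agent.P054.MathlibUsed
import Vale.Agent.P054.Bdl.B2
import Vale.Agent.P054.H438.G.Pat
import Vale.Agent.P054.H449.IM.Defs
attribute [-instance] ProperSMul.toContinuousSMul IsTopologicalTorsor.toContinuousSMul IdemSemiring.toCanonicallyOrderedAdd IdemSemiring.toMulLeftMono IdemSemiring.toMulRightMono AddQuantale.instAddLeftMono AddQuantale.instAddRightMono Quantale.instMulLeftMono Quantale.instMulRightMono FiniteDimensional.rclike_to_real IsScalarTower.complexToReal FiniteDimensional.complexToReal

set_option linter.all false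
set_option autoImplicit false

open Finset

/-! P054, the exponent for all sets: few mirrors imply many triangles. -/

namespace Vale.Agent.P054G

open Vale.Agent.P054K Vale.Agent.P054I

/-- all but two points of every fibre lie in fibres with at least three points -/
theorem big_fibres {α β : Type} [DecidableEq α] [DecidableEq β] (Y : Finset α) (f : α → β) :
    Y.card ≤ (Y.filter (fun a => 3 ≤ (Y.filter (fun b => f b = f a)).card)).card +
      2 * (Y.image f).card := by
  have h1 : Y.card = (Y.filter (fun a => 3 ≤ (Y.filter (fun b => f b = f a)).card)).card +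
      (Y.filter (fun a => ¬ 3 ≤ (Y.filter (fun b => f b = f a)).card)).card :=
    (card_filter_add_card_filter_not _).symm
  have h2 : (Y.filter (fun a => ¬ 3 ≤ (Y.filter (fun b => f b = f a)).card)).card ≤
      2 * (Y.image f).card := by
    set S := Y.filter (fun a => ¬ 3 ≤ (Y.filter (fun b => f b = f a)).card) with hS
    have h3 : S.card = ∑ c ∈ Y.image f, (S.filter (fun a => f a = c)).card := by
      apply card_eq_sum_card_fiberwise
      intro a ha
      exact mem_image_of_mem f (mem_filter.mp ha).1
    rw [h3]
    calc ∑ c ∈ Y.image f, (S.filter (fun a => f a = c)).card ≤ ∑ c ∈ Y.image f, 2 := by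
          apply sum_le_sum
          intro c _
          rcases (S.filter (fun a => f a = c)).eq_empty_or_nonempty with h0 | ⟨a, ha⟩
          · rw [h0]; simp
          · rw [mem_filter] at ha
            obtain ⟨haS, hac⟩ := ha
            have h4 := (mem_filter.mp haS).2
            have h5 : (S.filter (fun a => f a = c)).card ≤
                (Y.filter (fun b => f b = f a)).card := by
              apply card_le_card
              intro b hb
              rw [mem_filter] at hb ⊢
              refine ⟨(mem_filter.mp hb.1).1, ?_⟩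
              rw [hb.2, hac]
            omega
      _ = 2 * (Y.image f).card := by rw [sum_const, smul_eq_mul, mul_comm]
  omega

/-- the dual line of a pair seen at equal distance from `p` -/
theorem dl_eq_of_span {d : ℕ} (p a b v : EuclideanSpace ℝ (Fin d)) (hab : a ≠ b)
    (hd : dist p a = dist p b) (h : a - b ∈ Submodule.span ℝ {v}) :
    dl a b = Submodule.span ℝ {((v, 2 * inner ℝ p v) : EuclideanSpace ℝ (Fin d) × ℝ)} := by
  rw [Submodule.mem_span_singleton] at h
  obtain ⟨c, hc⟩ := h
  have hc0 : c ≠ 0 := by
    intro h0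
    rw [h0, zero_smul] at hc
    exact hab (sub_eq_zero.mp hc.symm)
  have h1 : dualVec (a, b) ∈ hyp p := (dualVec_mem_hyp p (a, b)).mpr hd
  have h2 : dualVec (a, b) = c • ((v, 2 * inner ℝ p v) : EuclideanSpace ℝ (Fin d) × ℝ) := by
    have h3 : dualVec (a, b) = (a - b, ‖a‖ ^ 2 - ‖b‖ ^ 2) := rfl
    rw [h3] at h1 ⊢
    rw [mem_hyp] at h1
    rw [Prod.smul_mk, Prod.mk.injEq]
    refine ⟨hc.symm, ?_⟩
    rw [← h1, ← hc, inner_smul_right, smul_eq_mul]
    ring
  unfold dl
  rw [h2]
  exact Submodule.span_singleton_smul_eq (IsUnit.mk0 c hc0) _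

theorem fewM_bad {d : ℕ} (X : Finset (EuclideanSpace ℝ (Fin d))) (k : ℝ)
    (p : EuclideanSpace ℝ (Fin d)) (h : FewM X ((X.card : ℝ) / 8) k p) : Bad X k p := by
  classical
  obtain ⟨Y, V, hYX, hXY, hYd, hV, hV0, hpair⟩ := h
  refine ⟨V.image (fun v => Submodule.span ℝ
    {((v, 2 * inner ℝ p v) : EuclideanSpace ℝ (Fin d) × ℝ)}), ?_, ?_, ?_⟩
  · refine le_trans ?_ hV
    exact_mod_cast card_image_le
  · intro ℓ hℓ
    rw [mem_image] at hℓ
    obtain ⟨v, _, rfl⟩ := hℓ
    rw [Submodule.span_singleton_le_iff_mem, mem_hyp]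
  · set H := V.image (fun v => Submodule.span ℝ
      {((v, 2 * inner ℝ p v) : EuclideanSpace ℝ (Fin d) × ℝ)}) with hH
    have h1 := big_fibres Y (dist p)
    have h2 : (Y.filter (fun a => 3 ≤ (Y.filter (fun b => dist p b = dist p a)).card)) ⊆
        good X H := by
      intro a ha
      rw [mem_filter] at ha
      obtain ⟨haY, ha3⟩ := ha
      have h3 : 2 ≤ ((Y.filter (fun b => dist p b = dist p a)).erase a).card := by
        have haF : a ∈ Y.filter (fun b => dist p b = dist p a) := mem_filter.mpr ⟨haY, rfl⟩
        rw [card_erase_of_mem haF]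
        omega
      obtain ⟨b, hb, c, hc, hbc⟩ := one_lt_card.mp (by omega :
        1 < ((Y.filter (fun b => dist p b = dist p a)).erase a).card)
      rw [mem_erase, mem_filter] at hb hc
      obtain ⟨hba, hbY, hbd⟩ := hb
      obtain ⟨hca, hcY, hcd⟩ := hc
      have key : ∀ y ∈ Y, ∀ y' ∈ Y, y ≠ y' → dist p y = dist p y' → dl y y' ∈ H := by
        intro y hy y' hy' hne hdist
        obtain ⟨v, hv, hspan⟩ := hpair y hy y' hy' hne hdist
        rw [dl_eq_of_span p y y' v hne hdist hspan, hH]
        exact mem_image_of_mem _ hv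
      unfold good
      rw [mem_filter]
      exact ⟨hYX haY, b, hYX hbY, c, hYX hcY, hba.symm, hbc, hca,
        key a haY b hbY hba.symm hbd.symm, key b hbY c hcY hbc (hbd.trans hcd.symm),
        key c hcY a haY hca hcd⟩
    have h3 := card_le_card h2
    have h4 : (Y.card : ℝ) + ((X \ Y).card : ℝ) = X.card := by
      have h5 : (X \ Y).card + Y.card = X.card := card_sdiff_add_card_eq_card hYX
      have h6 : (((X \ Y).card + Y.card : ℕ) : ℝ) = (X.card : ℝ) := by exact_mod_cast h5
      push_cast at h6
      linarith
    have h5 : (Y.card : ℝ) ≤ ((good X H).card : ℝ) + 2 * ((Y.image (dist p)).card : ℝ) := by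
      have h6 : Y.card ≤ (good X H).card + 2 * (Y.image (dist p)).card := by omega
      exact_mod_cast h6
    have h6 : (0:ℝ) ≤ X.card := by positivity
    linarith

end Vale.Agent.P054G
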