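import Vale.Agent.P054.MathlibUsed
import Vale.Agent.P054.H449.IM.Defs2
attribute [-instance] ProperSMul.toContinuousSMul IsTopologicalTorsor.toContinuousSMul IdemSemiring.toCanonicallyOrderedAdd IdemSemiring.toMulLeftMono IdemSemiring.toMulRightMono AddQuantale.instAddLeftMono AddQuantale.instAddRightMono Quantale.instMulLeftMono Quantale.instMulRightMono FiniteDimensional.rclike_to_real IsScalarTower.complexToReal FiniteDimensional.complexToReal

set_option linter.all false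
set_option autoImplicit false

/-! P054, the exponent for all sets: elimination of the scale. -/

namespace Vale.Agent.P054I

theorem elimG (d : ℕ) (hd : 1 ≤ d) : ElimG d := by
  intro n W V t s z hn hW hV ht hs hz h1 h2
  have hs0 : 0 < s := by linarith
  have ht0 : 0 < t := by linarith
  have hz0 : 0 < z := by linarith
  have hW0 : 0 < W := by linarith
  have hV0 : 0 < V := by linarith
  rcases le_total (t ^ (d + 1) / (s ^ 2 * z ^ 2)) (z * t ^ d) with h | h
  · left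
    calc n ^ 2 ≤ W * (t ^ (d + 1) / (s ^ 2 * z ^ 2) + z * t ^ d) := h2
      _ ≤ W * (z * t ^ d + z * t ^ d) :=
        mul_le_mul_of_nonneg_left (by linarith) hW0.le
      _ = 2 * W * (z * t ^ d) := by ring
  · right
    have h3 : n ^ 2 ≤ 2 * W * (t ^ (d + 1) / (s ^ 2 * z ^ 2)) := by
      calc n ^ 2 ≤ W * (t ^ (d + 1) / (s ^ 2 * z ^ 2) + z * t ^ d) := h2
        _ ≤ W * (t ^ (d + 1) / (s ^ 2 * z ^ 2) + t ^ (d + 1) / (s ^ 2 * z ^ 2)) :=
          mul_le_mul_of_nonneg_left (by linarith) hW0.le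
        _ = _ := by ring
    have h4 : n ^ 2 * (s ^ 2 * z ^ 2) ≤ 2 * W * t ^ (d + 1) := by
      have h5 : 0 < s ^ 2 * z ^ 2 := by positivity
      calc n ^ 2 * (s ^ 2 * z ^ 2) ≤ 2 * W * (t ^ (d + 1) / (s ^ 2 * z ^ 2)) * (s ^ 2 * z ^ 2) :=
            mul_le_mul_of_nonneg_right h3 h5.le
        _ = 2 * W * t ^ (d + 1) := by field_simp
    -- raise to the power `d - 1` and multiply by `n ^ 2`
    obtain ⟨e, rfl⟩ : ∃ e, d = e + 1 := ⟨d - 1, by omega⟩
    have he : e + 1 - 1 = e := by omega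
    rw [he] at h1 ⊢
    have h5 : (n ^ 2 * (s ^ 2 * z ^ 2)) ^ e ≤ (2 * W * t ^ (e + 1 + 1)) ^ e :=
      pow_le_pow_left₀ (by positivity) h4 e
    have h6 : n ^ 2 ≤ (V * t * s ^ e) ^ 2 := pow_le_pow_left₀ hn h1 2
    have h7 : n ^ 2 * (n ^ 2 * (s ^ 2 * z ^ 2)) ^ e ≤
        (V * t * s ^ e) ^ 2 * (2 * W * t ^ (e + 1 + 1)) ^ e :=
      mul_le_mul h6 h5 (by positivity) (by positivity)
    have h8 : n ^ 2 * (n ^ 2 * (s ^ 2 * z ^ 2)) ^ e =
        (n ^ (2 * (e + 1)) * z ^ (2 * e)) * s ^ (2 * e) := by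
      rw [mul_pow, mul_pow, ← pow_mul, ← pow_mul, ← pow_mul]
      ring
    have h9 : (V * t * s ^ e) ^ 2 * (2 * W * t ^ (e + 1 + 1)) ^ e =
        ((2 * W) ^ e * V ^ 2 * t ^ ((e + 1) ^ 2 + 1)) * s ^ (2 * e) := by
      have h10 : (e + 1) ^ 2 + 1 = 2 + (e + 1 + 1) * e := by ring
      rw [h10]
      generalize e + 1 + 1 = f
      have h11 : t ^ (2 + f * e) = t ^ 2 * (t ^ f) ^ e := by rw [pow_add, pow_mul]
      have h12 : s ^ (2 * e) = (s ^ e) ^ 2 := by rw [← pow_mul, mul_comm]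
      rw [h11, h12, mul_pow (2 * W) (t ^ f) e]
      ring
    rw [h8, h9] at h7
    exact le_of_mul_le_mul_right h7 (by positivity)

end Vale.Agent.P054I
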