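import Vale.Agent.P054.MathlibUsed
import Vale.Agent.P054.Bdl.B2
import Vale.Agent.P054.H438.G.Few
import Vale.Agent.P054.H438.G.Rob2
import Vale.Agent.P054.H449.IM.Defs
attribute [-instance] ProperSMul.toContinuousSMul IsTopologicalTorsor.toContinuousSMul IdemSemiring.toCanonicallyOrderedAdd IdemSemiring.toMulLeftMono IdemSemiring.toMulRightMono AddQuantale.instAddLeftMono AddQuantale.instAddRightMono Quantale.instMulLeftMono Quantale.instMulRightMono FiniteDimensional.rclike_to_real IsScalarTower.complexToReal FiniteDimensional.complexToReal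

set_option linter.all false
set_option autoImplicit false

open Finset

/-! P054, the exponent for all sets: the local lemma, hyperplane version. -/

namespace Vale.Agent.P054G

open Vale.Agent.P054K Vale.Agent.P054I

/-- triangle algebra -/
def A1 (d : ℕ) : Prop :=
  ∀ (p : EuclideanSpace ℝ (Fin d)) (w1 w2 w3 : EuclideanSpace ℝ (Fin d) × ℝ),
    w1 ∈ hyp p → w2 ∈ hyp p → w3 ∈ hyp p → w1 ≠ 0 → w2 ≠ 0 → w3 ≠ 0 →
    ∃ m : EuclideanSpace ℝ (Fin d), m ≠ 0 ∧ ∃ w, (w = w1 ∨ w = w3) ∧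
      ∀ a : EuclideanSpace ℝ (Fin d), a ≠ rf w1 a → rf w1 a ≠ rf w2 (rf w1 a) →
        rf w2 (rf w1 a) ≠ a → rf w3 a = rf w2 (rf w1 a) →
        inner ℝ m (a - p) = 0 ∧ inner ℝ m (rf w a - p) ≠ 0

/-- two different flats are exchanged by at most two mirrors -/
def A2 (d : ℕ) : Prop :=
  ∀ (F1 F2 : AffineSubspace ℝ (EuclideanSpace ℝ (Fin d)))
    (w1 w2 w3 : EuclideanSpace ℝ (Fin d) × ℝ), F1 ≠ F2 → (∃ z0, z0 ∈ F1) →
    w1.1 ≠ 0 → w2.1 ≠ 0 → w3.1 ≠ 0 →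
    (∀ z, z ∈ F1 ↔ rf w1 z ∈ F2) → (∀ z, z ∈ F1 ↔ rf w2 z ∈ F2) →
    (∀ z, z ∈ F1 ↔ rf w3 z ∈ F2) →
    Submodule.span ℝ {w1} = Submodule.span ℝ {w2} ∨
      Submodule.span ℝ {w1} = Submodule.span ℝ {w3} ∨
      Submodule.span ℝ {w2} = Submodule.span ℝ {w3}

/-- a bound for all hyperplanes bounds the centres on one dual vector -/
theorem hyp_bound {d : ℕ} (P : Finset (EuclideanSpace ℝ (Fin d))) (M : ℝ)
    (hM : open scoped Classical in ∀ p0 v : EuclideanSpace ℝ (Fin d), v ≠ 0 →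
      ((P.filter (fun z => inner ℝ v (z - p0) = 0)).card : ℝ) ≤ M)
    (w : EuclideanSpace ℝ (Fin d) × ℝ) (hw : w.1 ≠ 0)
    [DecidablePred fun p : EuclideanSpace ℝ (Fin d) => w ∈ hyp p] :
    ((P.filter (fun p => w ∈ hyp p)).card : ℝ) ≤ M := by
  classical
  obtain ⟨u, c⟩ := w
  simp only at hw
  refine le_trans ?_ (hM ((c / (2 * ‖u‖ ^ 2)) • u) u hw)
  have h0 : ‖u‖ ^ 2 ≠ 0 := by
    have : 0 < ‖u‖ := norm_pos_iff.mpr hw
    positivity
  norm_cast
  apply card_le_card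
  intro p hp
  rw [mem_filter] at hp ⊢
  refine ⟨hp.1, ?_⟩
  have h1 := hp.2
  rw [mem_hyp] at h1
  rw [inner_sub_right, inner_smul_right, real_inner_self_eq_norm_sq, real_inner_comm]
  field_simp
  linarith

open scoped Classical in
/-- centres on a mirror exchanging two different flats -/
theorem swapR_count {d : ℕ} (hA2 : A2 d) (P : Finset (EuclideanSpace ℝ (Fin d))) (M : ℝ)
    (hM0 : 0 ≤ M)
    (hM : ∀ p0 v : EuclideanSpace ℝ (Fin d), v ≠ 0 →
      ((P.filter (fun z => inner ℝ v (z - p0) = 0)).card : ℝ) ≤ M)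
    (F1 F2 : AffineSubspace ℝ (EuclideanSpace ℝ (Fin d))) (hne : F1 ≠ F2)
    (h0 : ∃ z0, z0 ∈ F1) :
    ((P.filter (fun p => ∃ w ∈ hyp p, w.1 ≠ 0 ∧ ∀ z, z ∈ F1 ↔ rf w z ∈ F2)).card : ℝ) ≤
      2 * M := by
  set S := P.filter (fun p => ∃ w ∈ hyp p, w.1 ≠ 0 ∧ ∀ z, z ∈ F1 ↔ rf w z ∈ F2) with hS
  -- one hyperplane
  have hone : ∀ w : EuclideanSpace ℝ (Fin d) × ℝ, w.1 ≠ 0 →
      ((P.filter (fun p => w ∈ hyp p)).card : ℝ) ≤ M := fun w hw => hyp_bound P M hM w hw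
  have hspan : ∀ w w' : EuclideanSpace ℝ (Fin d) × ℝ, ∀ p : EuclideanSpace ℝ (Fin d),
      Submodule.span ℝ {w} = Submodule.span ℝ {w'} → w ∈ hyp p → w' ∈ hyp p := by
    intro w w' p h hw
    have h1 : w' ∈ Submodule.span ℝ {w} := by
      rw [h]; exact Submodule.mem_span_singleton_self _
    have h2 : Submodule.span ℝ {w} ≤ hyp p := by
      rw [Submodule.span_singleton_le_iff_mem]; exact hw
    exact h2 h1
  rcases S.eq_empty_or_nonempty with hSe | ⟨p1, hp1⟩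
  · rw [hSe]; simp; linarith
  · obtain ⟨w1, hw1p, hw1, hw1F⟩ := (mem_filter.mp hp1).2
    by_cases hex : ∃ p2 ∈ S, ∃ w2 ∈ hyp p2, w2.1 ≠ 0 ∧ (∀ z, z ∈ F1 ↔ rf w2 z ∈ F2) ∧
        Submodule.span ℝ {w1} ≠ Submodule.span ℝ {w2}
    · obtain ⟨p2, hp2, w2, hw2p, hw2, hw2F, hw12⟩ := hex
      have h1 : S ⊆ P.filter (fun p => w1 ∈ hyp p) ∪ P.filter (fun p => w2 ∈ hyp p) := by
        intro p hp
        rw [hS, mem_filter] at hp
        obtain ⟨hpP, w, hwp, hw, hwF⟩ := hp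
        rw [mem_union, mem_filter, mem_filter]
        rcases hA2 F1 F2 w w1 w2 hne h0 hw hw1 hw2 hwF hw1F hw2F with h | h | h
        · exact Or.inl ⟨hpP, hspan w w1 p h hwp⟩
        · exact Or.inr ⟨hpP, hspan w w2 p h hwp⟩
        · exact absurd h hw12
      have h2 : (S.card : ℝ) ≤ ((P.filter (fun p => w1 ∈ hyp p)).card : ℝ) +
          ((P.filter (fun p => w2 ∈ hyp p)).card : ℝ) := by
        exact_mod_cast (card_le_card h1).trans (card_union_le _ _)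
      have h3 := hone w1 hw1
      have h4 := hone w2 hw2
      linarith
    · push Not at hex
      have h1 : S ⊆ P.filter (fun p => w1 ∈ hyp p) := by
        intro p hp
        have hp' := hp
        rw [hS, mem_filter] at hp'
        obtain ⟨hpP, w, hwp, hw, hwF⟩ := hp'
        rw [mem_filter]
        exact ⟨hpP, hspan w w1 p (hex p hp w hwp hw hwF).symm hwp⟩
      have h2 : (S.card : ℝ) ≤ ((P.filter (fun p => w1 ∈ hyp p)).card : ℝ) := by
        exact_mod_cast card_le_card h1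
      have h3 := hone w1 hw1
      linarith

open scoped Classical in
/-- centres on a robust flat that is a hyperplane through the centre -/
theorem top_count {d : ℕ} (P : Finset (EuclideanSpace ℝ (Fin d))) (M : ℝ) (hM0 : 0 ≤ M)
    (hM : ∀ p0 v : EuclideanSpace ℝ (Fin d), v ≠ 0 →
      ((P.filter (fun z => inner ℝ v (z - p0) = 0)).card : ℝ) ≤ M)
    (U : Submodule ℝ (EuclideanSpace ℝ (Fin d) × ℝ)) :
    ((P.filter (fun p => ∃ m : EuclideanSpace ℝ (Fin d), m ≠ 0 ∧ U = hf m p)).card : ℝ) ≤ M := by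
  set S := P.filter (fun p => ∃ m : EuclideanSpace ℝ (Fin d), m ≠ 0 ∧ U = hf m p) with hS
  rcases S.eq_empty_or_nonempty with hSe | ⟨p1, hp1⟩
  · rw [hSe]; simpa using hM0
  · obtain ⟨m1, hm1, hU1⟩ := (mem_filter.mp hp1).2
    refine le_trans ?_ (hM p1 m1 hm1)
    norm_cast
    apply card_le_card
    intro p hp
    rw [hS, mem_filter] at hp
    obtain ⟨hpP, m, hm, hU⟩ := hp
    rw [mem_filter]
    refine ⟨hpP, ?_⟩
    rw [← lf_mem_hf, ← hU1, hU, lf_mem_hf, sub_self, inner_zero_right]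

open scoped Classical in
/-- what one bad centre gives -/
theorem bad_flat {d : ℕ} (hA1 : A1 d) (X : Finset (EuclideanSpace ℝ (Fin d))) (k θ : ℝ)
    (hk : 1 ≤ k) (hX : (2:ℝ) ^ (d + 4) * k ^ 3 ≤ X.card) (hθ : 0 < θ)
    (hθX : 2 ^ (d + 4) * k ^ 3 * θ ≤ X.card) (p : EuclideanSpace ℝ (Fin d)) (h : Bad X k p) :
    (∃ r, 2 ≤ r ∧ r < d ∧ ∃ U ∈ robs X θ r, ∃ U' ∈ robs X θ r, U ≠ U' ∧
      ∃ w ∈ hyp p, w.1 ≠ 0 ∧ ∀ z, z ∈ FU U ↔ rf w z ∈ FU U') ∨
    (∃ U ∈ robs X θ d, ∃ m : EuclideanSpace ℝ (Fin d), m ≠ 0 ∧ U = hf m p) := by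
  have hk0 : 0 < k := by linarith
  have hk3 : 0 < k ^ 3 := by positivity
  have hXpos : (0:ℝ) < X.card := lt_of_lt_of_le (by positivity) hX
  have hXne : X.Nonempty := by
    rw [← card_pos]; exact_mod_cast hXpos
  obtain ⟨w1, hw1, w2, hw2, w3, hw3, h1, h2, h3, A, hAX, hAc, hAf⟩ := bad_pattern X k p hXne h
  obtain ⟨m, hm, w, hw, hmw⟩ := hA1 p w1 w2 w3 hw1 hw2 hw3 h1 h2 h3
  have hwp : w ∈ hyp p := by rcases hw with rfl | rfl <;> assumption
  have hw0 : w ≠ 0 := by rcases hw with rfl | rfl <;> assumption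
  have hwX : ∀ a ∈ A, rf w a ∈ X := by
    intro a ha
    rcases hw with rfl | rfl
    · exact (hAf a ha).1
    · exact (hAf a ha).2.1
  have hmA : ∀ a ∈ A, inner ℝ m (a - p) = 0 ∧ inner ℝ m (rf w a - p) ≠ 0 := by
    intro a ha
    obtain ⟨f1, f2, f3, f4, f5, f6⟩ := hAf a ha
    exact hmw a f4 (by rw [f3]; exact f5) (by rw [f3]; exact f6) f3.symm
  have hAbig : 2 ^ d < A.card := by
    have h4 : (2:ℝ) ^ (d + 4) * k ^ 3 ≤ 8 * k ^ 3 * A.card := hX.trans hAc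
    have h5 : (2:ℝ) ^ (d + 4) * k ^ 3 = (8 * k ^ 3) * (2 ^ (d + 1)) := by
      rw [pow_add, pow_add]; ring
    rw [h5] at h4
    have h6 := le_of_mul_le_mul_left h4 (by positivity)
    have h7 : 2 ^ (d + 1) ≤ A.card := by exact_mod_cast h6
    have h8 : 2 ^ d < 2 ^ (d + 1) := Nat.pow_lt_pow_right (by norm_num) (by omega)
    omega
  obtain ⟨r, U, hr2, hrd, hUle, hU⟩ := min_flat A (hf m p) (finrank_hf m p hm).le
    (fun a ha => (lf_mem_hf m p a).mpr (hmA a ha).1) hAbig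
  have hθA : θ ≤ (A.card : ℝ) / 2 ^ (d + 1) := by
    rw [le_div_iff₀ (by positivity)]
    have h4 : (2:ℝ) ^ (d + 4) * k ^ 3 * θ ≤ 8 * k ^ 3 * A.card := hθX.trans hAc
    have h5 : (2:ℝ) ^ (d + 4) * k ^ 3 * θ = (8 * k ^ 3) * (θ * 2 ^ (d + 1)) := by
      rw [pow_add, pow_add]; ring
    rw [h5] at h4
    exact le_of_mul_le_mul_left h4 (by positivity)
  have hA0 : 0 < (A.card : ℝ) / 2 ^ (d + 1) := lt_of_lt_of_le hθ hθA
  have hUX : Rob X θ r U := hU.mono hAX hθ.le hθA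
  have hU' : Rob X θ r (U.map (rfL w)) :=
    (rob_map A X _ r U w hU hwX).mono (subset_refl _) hθ.le hθA
  rcases Nat.lt_or_ge r d with hlt | hge
  · left
    refine ⟨r, hr2, hlt, U, (mem_robs hθ).mpr hUX, U.map (rfL w), (mem_robs hθ).mpr hU', ?_, w,
      hwp, fst_ne_zero w p hwp hw0, fun z => FU_map U w z⟩
    intro hEq
    obtain ⟨a, ha, haU⟩ := hU.nonempty (by omega) hA0
    have h4 : lf (rf w a) ∈ U := by
      rw [hEq, ← rfL_lf]
      exact Submodule.mem_map_of_mem haU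
    have h5 := (lf_mem_hf m p (rf w a)).mp (hUle h4)
    exact (hmA a ha).2 h5
  · right
    have hrd' : r = d := le_antisymm hrd hge
    subst hrd'
    refine ⟨U, (mem_robs hθ).mpr hUX, m, hm, ?_⟩
    exact Submodule.eq_of_le_of_finrank_eq hUle (by rw [hU.1, finrank_hf m p hm])

open scoped Classical in
/-- the local lemma -/
theorem localG_of {d : ℕ} (hd : 2 ≤ d) (hA1 : A1 d) (hA2 : A2 d) :
    LocalG d ((2 * d + 1) * (2 ^ (d + 4)) ^ (2 * (d - 1))) (6 * (d - 1)) := by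
  intro X P k M hk hX hM0 hfew hM
  have hk0 : 0 < k := by linarith
  have hk3 : 1 ≤ k ^ 3 := one_le_pow₀ hk
  have hκ1 : (1:ℝ) ≤ 2 ^ (d + 4) := one_le_pow₀ (by norm_num)
  set κ : ℝ := 2 ^ (d + 4) * k ^ 3 with hκ
  have hκ0 : 1 ≤ κ := one_le_mul_of_one_le_of_one_le hκ1 hk3
  have hX' : κ ≤ X.card := by
    refine le_trans ?_ hX
    rw [hκ]
    apply mul_le_mul_of_nonneg_right _ (by positivity)
    have h1 : (2:ℝ) ^ (d + 4) ≤ (2 ^ (d + 4)) ^ (2 * (d - 1)) :=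
      le_self_pow₀ hκ1 (by omega)
    have h2 : (1:ℝ) ≤ 2 * d + 1 := by
      have : (0:ℝ) ≤ d := by positivity
      linarith
    calc (2:ℝ) ^ (d + 4) ≤ (2 ^ (d + 4)) ^ (2 * (d - 1)) := h1
      _ ≤ (2 * d + 1) * (2 ^ (d + 4)) ^ (2 * (d - 1)) :=
        le_mul_of_one_le_left (by positivity) h2
  have hXpos : (0:ℝ) < X.card := by linarith
  set θ : ℝ := (X.card : ℝ) / κ with hθdef
  have hκpos : 0 < κ := by linarith
  have hθ : 0 < θ := by positivity
  have hθX : κ * θ = X.card := by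
    rw [hθdef]; field_simp
  have hrob : ∀ r, ((robs X θ r).card : ℝ) ≤ κ ^ r := fun r =>
    robs_card_le X θ κ r hθ hθX.ge
  -- the cover
  set S : Submodule ℝ (EuclideanSpace ℝ (Fin d) × ℝ) × Submodule ℝ (EuclideanSpace ℝ (Fin d) × ℝ) →
      Finset (EuclideanSpace ℝ (Fin d)) := fun UU =>
    P.filter (fun p => ∃ w ∈ hyp p, w.1 ≠ 0 ∧ ∀ z, z ∈ FU UU.1 ↔ rf w z ∈ FU UU.2) with hS
  set T : Submodule ℝ (EuclideanSpace ℝ (Fin d) × ℝ) → Finset (EuclideanSpace ℝ (Fin d)) :=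
    fun U => P.filter (fun p => ∃ m : EuclideanSpace ℝ (Fin d), m ≠ 0 ∧ U = hf m p) with hT
  have hcover : P ⊆ ((Ico 2 d).biUnion (fun r =>
      ((robs X θ r ×ˢ robs X θ r).filter (fun UU => UU.1 ≠ UU.2)).biUnion S)) ∪
      (robs X θ d).biUnion T := by
    intro p hp
    have hb := fewM_bad X k p (hfew p hp)
    rcases bad_flat hA1 X k θ hk hX' hθ hθX.le p hb with
      ⟨r, hr2, hrd, U, hU, U', hU', hne, hw⟩ | ⟨U, hU, hm⟩
    · rw [mem_union]
      left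
      rw [mem_biUnion]
      refine ⟨r, mem_Ico.mpr ⟨hr2, hrd⟩, ?_⟩
      rw [mem_biUnion]
      exact ⟨(U, U'), mem_filter.mpr ⟨mem_product.mpr ⟨hU, hU'⟩, hne⟩,
        mem_filter.mpr ⟨hp, hw⟩⟩
    · rw [mem_union]
      right
      rw [mem_biUnion]
      exact ⟨U, hU, mem_filter.mpr ⟨hp, hm⟩⟩
  have hSb : ∀ r ∈ Ico 2 d, ((((robs X θ r ×ˢ robs X θ r).filter
      (fun UU => UU.1 ≠ UU.2)).biUnion S).card : ℝ) ≤ κ ^ (2 * (d - 1)) * (2 * M) := by
    intro r hr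
    rw [mem_Ico] at hr
    have h1 : ((((robs X θ r ×ˢ robs X θ r).filter (fun UU => UU.1 ≠ UU.2)).biUnion S).card : ℝ) ≤
        ∑ UU ∈ (robs X θ r ×ˢ robs X θ r).filter (fun UU => UU.1 ≠ UU.2), ((S UU).card : ℝ) := by
      exact_mod_cast card_biUnion_le
    refine h1.trans ?_
    have h2 : ∀ UU ∈ (robs X θ r ×ˢ robs X θ r).filter (fun UU => UU.1 ≠ UU.2),
        ((S UU).card : ℝ) ≤ 2 * M := by
      intro UU hUU
      rw [mem_filter, mem_product, mem_robs hθ, mem_robs hθ] at hUU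
      obtain ⟨⟨hU, hU'⟩, hne⟩ := hUU
      obtain ⟨a, _, ha⟩ := hU.nonempty (by omega) hθ
      exact swapR_count hA2 P M hM0 hM (FU UU.1) (FU UU.2) (FU_ne hU hU' hθ hθ hne) ⟨a, ha⟩
    refine (sum_le_sum h2).trans ?_
    rw [sum_const, nsmul_eq_mul]
    apply mul_le_mul_of_nonneg_right _ (by linarith)
    have h3 : ((((robs X θ r ×ˢ robs X θ r).filter (fun UU => UU.1 ≠ UU.2)).card : ℕ) : ℝ) ≤
        (robs X θ r).card * (robs X θ r).card := by
      have h4 := card_filter_le (robs X θ r ×ˢ robs X θ r) (fun UU => UU.1 ≠ UU.2)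
      rw [card_product] at h4
      exact_mod_cast h4
    refine h3.trans ?_
    calc ((robs X θ r).card : ℝ) * (robs X θ r).card ≤ κ ^ r * κ ^ r :=
          mul_le_mul (hrob r) (hrob r) (by positivity) (by positivity)
      _ = κ ^ (2 * r) := by rw [← pow_add]; congr 1; omega
      _ ≤ κ ^ (2 * (d - 1)) := pow_le_pow_right₀ hκ0 (by omega)
  have hTb : ((((robs X θ d).biUnion T).card : ℕ) : ℝ) ≤ κ ^ (2 * (d - 1)) * M := by
    have h1 : ((((robs X θ d).biUnion T).card : ℕ) : ℝ) ≤ ∑ U ∈ robs X θ d, ((T U).card : ℝ) := by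
      exact_mod_cast card_biUnion_le
    refine h1.trans ?_
    refine (sum_le_sum (fun U _ => top_count P M hM0 hM U)).trans ?_
    rw [sum_const, nsmul_eq_mul]
    apply mul_le_mul_of_nonneg_right _ hM0
    exact (hrob d).trans (pow_le_pow_right₀ hκ0 (by omega))
  have hfinal : (P.card : ℝ) ≤ (d:ℝ) * (κ ^ (2 * (d - 1)) * (2 * M)) + κ ^ (2 * (d - 1)) * M := by
    have h1 : (P.card : ℝ) ≤ (((Ico 2 d).biUnion (fun r =>
        ((robs X θ r ×ˢ robs X θ r).filter (fun UU => UU.1 ≠ UU.2)).biUnion S)).card : ℝ) +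
        (((robs X θ d).biUnion T).card : ℝ) := by
      exact_mod_cast (card_le_card hcover).trans (card_union_le _ _)
    have h2 : (((Ico 2 d).biUnion (fun r => ((robs X θ r ×ˢ robs X θ r).filter
        (fun UU => UU.1 ≠ UU.2)).biUnion S)).card : ℝ) ≤
        (d:ℝ) * (κ ^ (2 * (d - 1)) * (2 * M)) := by
      have h3 : (((Ico 2 d).biUnion (fun r => ((robs X θ r ×ˢ robs X θ r).filter
          (fun UU => UU.1 ≠ UU.2)).biUnion S)).card : ℝ) ≤
          ∑ r ∈ Ico 2 d, ((((robs X θ r ×ˢ robs X θ r).filter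
            (fun UU => UU.1 ≠ UU.2)).biUnion S).card : ℝ) := by
        exact_mod_cast card_biUnion_le
      refine h3.trans ((sum_le_sum hSb).trans ?_)
      rw [sum_const, nsmul_eq_mul, Nat.card_Ico]
      apply mul_le_mul_of_nonneg_right _ (by positivity)
      exact_mod_cast Nat.sub_le d 2
    linarith
  refine hfinal.trans (le_of_eq ?_)
  have h1 : κ ^ (2 * (d - 1)) = (2 ^ (d + 4)) ^ (2 * (d - 1)) * k ^ (6 * (d - 1)) := by
    rw [hκ, mul_pow, ← pow_mul k]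
    congr 2
    ring
  rw [h1]
  ring

end Vale.Agent.P054G
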