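import Vale.Agent.P054.MathlibUsed
import Vale.Agent.P054.H343.G.Refl
import Vale.Agent.P054.H438.G.LocG
attribute [-instance] ProperSMul.toContinuousSMul IsTopologicalTorsor.toContinuousSMul IdemSemiring.toCanonicallyOrderedAdd IdemSemiring.toMulLeftMono IdemSemiring.toMulRightMono AddQuantale.instAddLeftMono AddQuantale.instAddRightMono Quantale.instMulLeftMono Quantale.instMulRightMono FiniteDimensional.rclike_to_real IsScalarTower.complexToReal FiniteDimensional.complexToReal

set_option linter.all false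
set_option autoImplicit false

/-! P054, the exponent for all sets: the local lemma, unconditional. -/

namespace Vale.Agent.P054G

open Vale.Agent.P054K Vale.Agent.P054I

theorem a1 (d : ℕ) : A1 d := fun p w1 w2 w3 h1 h2 h3 n1 _ _ => refl_tri p w1 w2 w3 h1 h2 h3 n1

theorem a2 (d : ℕ) : A2 d := by
  intro F1 F2 w1 w2 w3 hne h0 n1 n2 n3 h1 h2 h3
  obtain ⟨z0, hz0⟩ := h0
  exact three_mirrors F1 F2 hne z0 hz0 w1 w2 w3 n1 n2 n3 h1 h2 h3

/-- the local lemma -/
theorem localG (d : ℕ) (hd : 2 ≤ d) :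
    LocalG d ((2 * d + 1) * (2 ^ (d + 4)) ^ (2 * (d - 1))) (6 * (d - 1)) :=
  localG_of hd (a1 d) (a2 d)

end Vale.Agent.P054G
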