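import Vale.Agent.P054.MathlibUsed
import Vale.Agent.P054.H438.G.LocGFin
import Vale.Agent.P054.H449.IM.Defs3
attribute [-instance] ProperSMul.toContinuousSMul IsTopologicalTorsor.toContinuousSMul IdemSemiring.toCanonicallyOrderedAdd IdemSemiring.toMulLeftMono IdemSemiring.toMulRightMono AddQuantale.instAddLeftMono AddQuantale.instAddRightMono Quantale.instMulLeftMono Quantale.instMulRightMono FiniteDimensional.rclike_to_real IsScalarTower.complexToReal FiniteDimensional.complexToReal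

set_option linter.all false
set_option autoImplicit false

open Finset

/-! P054, the exponent for all sets: the local lemma for bad points, hyperplane version. -/

namespace Vale.Agent.P054G

open Vale.Agent.P054K Vale.Agent.P054I

open scoped Classical in
/-- the local lemma for bad points -/
theorem localB_of {d : ℕ} (hd : 2 ≤ d) (hA1 : A1 d) (hA2 : A2 d) :
    LocalB d ((2 * d + 1) * (2 ^ (d + 4)) ^ (2 * (d - 1))) (6 * (d - 1)) := by
  intro X P k M hk hX hM0 hbad hM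
  have hk0 : 0 < k := by linarith
  have hk3 : 1 ≤ k ^ 3 := one_le_pow₀ hk
  have hκ1 : (1:ℝ) ≤ 2 ^ (d + 4) := one_le_pow₀ (by norm_num)
  set κ : ℝ := 2 ^ (d + 4) * k ^ 3 with hκ
  have hκ0 : 1 ≤ κ := one_le_mul_of_one_le_of_one_le hκ1 hk3
  have hX' : κ ≤ X.card := by
    refine le_trans ?_ hX
    rw [hκ]
    apply mul_le_mul_of_nonneg_right _ (by positivity)
    have h1 : (2:ℝ) ^ (d + 4) ≤ (2 ^ (d + 4)) ^ (2 * (d - 1)) :=
      le_self_pow₀ hκ1 (by omega)
    have h2 : (1:ℝ) ≤ 2 * d + 1 := by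
      have : (0:ℝ) ≤ d := by positivity
      linarith
    calc (2:ℝ) ^ (d + 4) ≤ (2 ^ (d + 4)) ^ (2 * (d - 1)) := h1
      _ ≤ (2 * d + 1) * (2 ^ (d + 4)) ^ (2 * (d - 1)) :=
        le_mul_of_one_le_left (by positivity) h2
  have hXpos : (0:ℝ) < X.card := by linarith
  set θ : ℝ := (X.card : ℝ) / κ with hθdef
  have hκpos : 0 < κ := by linarith
  have hθ : 0 < θ := by positivity
  have hθX : κ * θ = X.card := by
    rw [hθdef]; field_simp
  have hrob : ∀ r, ((robs X θ r).card : ℝ) ≤ κ ^ r := fun r =>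
    robs_card_le X θ κ r hθ hθX.ge
  -- the cover
  set S : Submodule ℝ (EuclideanSpace ℝ (Fin d) × ℝ) × Submodule ℝ (EuclideanSpace ℝ (Fin d) × ℝ) →
      Finset (EuclideanSpace ℝ (Fin d)) := fun UU =>
    P.filter (fun p => ∃ w ∈ hyp p, w.1 ≠ 0 ∧ ∀ z, z ∈ FU UU.1 ↔ rf w z ∈ FU UU.2) with hS
  set T : Submodule ℝ (EuclideanSpace ℝ (Fin d) × ℝ) → Finset (EuclideanSpace ℝ (Fin d)) :=
    fun U => P.filter (fun p => ∃ m : EuclideanSpace ℝ (Fin d), m ≠ 0 ∧ U = hf m p) with hT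
  have hcover : P ⊆ ((Ico 2 d).biUnion (fun r =>
      ((robs X θ r ×ˢ robs X θ r).filter (fun UU => UU.1 ≠ UU.2)).biUnion S)) ∪
      (robs X θ d).biUnion T := by
    intro p hp
    have hb := hbad p hp
    rcases bad_flat hA1 X k θ hk hX' hθ hθX.le p hb with
      ⟨r, hr2, hrd, U, hU, U', hU', hne, hw⟩ | ⟨U, hU, hm⟩
    · rw [mem_union]
      left
      rw [mem_biUnion]
      refine ⟨r, mem_Ico.mpr ⟨hr2, hrd⟩, ?_⟩
      rw [mem_biUnion]
      exact ⟨(U, U'), mem_filter.mpr ⟨mem_product.mpr ⟨hU, hU'⟩, hne⟩,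
        mem_filter.mpr ⟨hp, hw⟩⟩
    · rw [mem_union]
      right
      rw [mem_biUnion]
      exact ⟨U, hU, mem_filter.mpr ⟨hp, hm⟩⟩
  have hSb : ∀ r ∈ Ico 2 d, ((((robs X θ r ×ˢ robs X θ r).filter
      (fun UU => UU.1 ≠ UU.2)).biUnion S).card : ℝ) ≤ κ ^ (2 * (d - 1)) * (2 * M) := by
    intro r hr
    rw [mem_Ico] at hr
    have h1 : ((((robs X θ r ×ˢ robs X θ r).filter (fun UU => UU.1 ≠ UU.2)).biUnion S).card : ℝ) ≤
        ∑ UU ∈ (robs X θ r ×ˢ robs X θ r).filter (fun UU => UU.1 ≠ UU.2), ((S UU).card : ℝ) := by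
      exact_mod_cast card_biUnion_le
    refine h1.trans ?_
    have h2 : ∀ UU ∈ (robs X θ r ×ˢ robs X θ r).filter (fun UU => UU.1 ≠ UU.2),
        ((S UU).card : ℝ) ≤ 2 * M := by
      intro UU hUU
      rw [mem_filter, mem_product, mem_robs hθ, mem_robs hθ] at hUU
      obtain ⟨⟨hU, hU'⟩, hne⟩ := hUU
      obtain ⟨a, _, ha⟩ := hU.nonempty (by omega) hθ
      exact swapR_count hA2 P M hM0 hM (FU UU.1) (FU UU.2) (FU_ne hU hU' hθ hθ hne) ⟨a, ha⟩
    refine (sum_le_sum h2).trans ?_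
    rw [sum_const, nsmul_eq_mul]
    apply mul_le_mul_of_nonneg_right _ (by linarith)
    have h3 : ((((robs X θ r ×ˢ robs X θ r).filter (fun UU => UU.1 ≠ UU.2)).card : ℕ) : ℝ) ≤
        (robs X θ r).card * (robs X θ r).card := by
      have h4 := card_filter_le (robs X θ r ×ˢ robs X θ r) (fun UU => UU.1 ≠ UU.2)
      rw [card_product] at h4
      exact_mod_cast h4
    refine h3.trans ?_
    calc ((robs X θ r).card : ℝ) * (robs X θ r).card ≤ κ ^ r * κ ^ r :=
          mul_le_mul (hrob r) (hrob r) (by positivity) (by positivity)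
      _ = κ ^ (2 * r) := by rw [← pow_add]; congr 1; omega
      _ ≤ κ ^ (2 * (d - 1)) := pow_le_pow_right₀ hκ0 (by omega)
  have hTb : ((((robs X θ d).biUnion T).card : ℕ) : ℝ) ≤ κ ^ (2 * (d - 1)) * M := by
    have h1 : ((((robs X θ d).biUnion T).card : ℕ) : ℝ) ≤ ∑ U ∈ robs X θ d, ((T U).card : ℝ) := by
      exact_mod_cast card_biUnion_le
    refine h1.trans ?_
    refine (sum_le_sum (fun U _ => top_count P M hM0 hM U)).trans ?_
    rw [sum_const, nsmul_eq_mul]
    apply mul_le_mul_of_nonneg_right _ hM0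
    exact (hrob d).trans (pow_le_pow_right₀ hκ0 (by omega))
  have hfinal : (P.card : ℝ) ≤ (d:ℝ) * (κ ^ (2 * (d - 1)) * (2 * M)) + κ ^ (2 * (d - 1)) * M := by
    have h1 : (P.card : ℝ) ≤ (((Ico 2 d).biUnion (fun r =>
        ((robs X θ r ×ˢ robs X θ r).filter (fun UU => UU.1 ≠ UU.2)).biUnion S)).card : ℝ) +
        (((robs X θ d).biUnion T).card : ℝ) := by
      exact_mod_cast (card_le_card hcover).trans (card_union_le _ _)
    have h2 : (((Ico 2 d).biUnion (fun r => ((robs X θ r ×ˢ robs X θ r).filter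
        (fun UU => UU.1 ≠ UU.2)).biUnion S)).card : ℝ) ≤
        (d:ℝ) * (κ ^ (2 * (d - 1)) * (2 * M)) := by
      have h3 : (((Ico 2 d).biUnion (fun r => ((robs X θ r ×ˢ robs X θ r).filter
          (fun UU => UU.1 ≠ UU.2)).biUnion S)).card : ℝ) ≤
          ∑ r ∈ Ico 2 d, ((((robs X θ r ×ˢ robs X θ r).filter
            (fun UU => UU.1 ≠ UU.2)).biUnion S).card : ℝ) := by
        exact_mod_cast card_biUnion_le
      refine h3.trans ((sum_le_sum hSb).trans ?_)
      rw [sum_const, nsmul_eq_mul, Nat.card_Ico]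
      apply mul_le_mul_of_nonneg_right _ (by positivity)
      exact_mod_cast Nat.sub_le d 2
    linarith
  refine hfinal.trans (le_of_eq ?_)
  have h1 : κ ^ (2 * (d - 1)) = (2 ^ (d + 4)) ^ (2 * (d - 1)) * k ^ (6 * (d - 1)) := by
    rw [hκ, mul_pow, ← pow_mul k]
    congr 2
    ring
  rw [h1]
  ring

/-- (U3) the local lemma for bad points, unconditional -/
theorem localB (d : ℕ) (hd : 2 ≤ d) :
    LocalB d ((2 * d + 1) * (2 ^ (d + 4)) ^ (2 * (d - 1))) (6 * (d - 1)) :=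
  localB_of hd (a1 d) (a2 d)

end Vale.Agent.P054G
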